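import Vale.Agent.P268.T.H897.Gate
import Vale.Agent.P268.T.H830.Chain

/-!
# P268, topological half: chains of gates, without Lipschitz conditions

The same list induction as `GateData.hEqv` (with the same functions `gch`), but no Lipschitz
condition is required: `turn` is not Lipschitz, so the ray forms are covered only by this version.
-/

set_option linter.unusedSectionVars false

namespace Vale.Agent.P268.T.GL

open Set Filter Topology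

variable {Θ : Type*} [TopologicalSpace Θ]

/-- Planar families (without a Lipschitz condition): saturated, and regular where the real part is
nonnegative. -/
structure Planar0 (s : Set Θ) (C : ℝ) (G : Θ → ℝ → ℂ → ℂ) : Prop where
  cpos : 0 < C
  cont : ContinuousOn (fun p : Θ × (ℝ × ℂ) => G p.1 p.2.1 p.2.2) (s ×ˢ (Ici 0 ×ˢ univ))
  hom : ∀ t ∈ s, ∀ r : ℝ, 0 ≤ r → ∀ d : ℝ, 0 ≤ d → ∀ z : ℂ, G t (r * d) (r • z) = r • G t d z
  zero : ∀ t ∈ s, ∀ d : ℝ, 0 ≤ d → G t d 0 = 0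
  sat : ∀ t ∈ s, ∀ (d : ℝ) (z : ℂ), C * ‖z‖ ≤ d → G t d z = G t (C * ‖z‖) z
  reg : ∀ t ∈ s, ∀ d : ℝ, 0 ≤ d → ∀ z : ℂ, z ≠ 0 → 0 ≤ (G t d z).re →
    RegAt (s ×ˢ Ici (0 : ℝ)) (fun (p : Θ × ℝ) z => G p.1 p.2 z) (t, d) z

theorem _root_.Vale.Agent.P268.T.Planar.toPlanar0 {s : Set Θ} {C L : ℝ} {G : Θ → ℝ → ℂ → ℂ}
    (h : Planar s C L G) : Planar0 s C G :=
  ⟨h.cpos, h.cont, h.hom, h.zero, h.sat, h.reg⟩

/-- Over a closed cone where the real parts are negative, they are uniformly negative. -/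
theorem Planar0.exists_delta {s : Set Θ} (hs : IsCompact s) {C : ℝ} {G : Θ → ℝ → ℂ → ℂ}
    (h : Planar0 s C G) {S : Set (Θ × ℂ)} (hS : IsClosed S)
    (hScone : ∀ p ∈ S, ∀ r : ℝ, 0 < r → (p.1, r • p.2) ∈ S)
    (hneg : ∀ p ∈ S, p.1 ∈ s → p.2 ≠ 0 → ∀ d : ℝ, 0 ≤ d → (G p.1 d p.2).re < 0) :
    ∃ δ : ℝ, 0 < δ ∧ ∀ p ∈ S, p.1 ∈ s → ∀ d : ℝ, 0 ≤ d → (G p.1 d p.2).re ≤ -(δ * ‖p.2‖) := by
  have hC := h.cpos
  set K : Set (Θ × (ℝ × ℂ)) := (s ×ˢ (Icc 0 C ×ˢ Metric.sphere (0 : ℂ) 1)) ∩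
    (fun q : Θ × (ℝ × ℂ) => (q.1, q.2.2)) ⁻¹' S with hK
  have hKc : IsCompact K := by
    refine (hs.prod (isCompact_Icc.prod (isCompact_sphere (0 : ℂ) 1))).inter_right ?_
    exact hS.preimage (by fun_prop)
  have hcont : ContinuousOn (fun q : Θ × (ℝ × ℂ) => (G q.1 q.2.1 q.2.2).re) K := by
    refine Complex.continuous_re.comp_continuousOn (h.cont.mono ?_)
    rintro ⟨t, d, z⟩ ⟨⟨ht, hd, hz⟩, _⟩
    exact ⟨ht, hd.1, mem_univ _⟩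
  have hneg' : ∀ q ∈ K, (G q.1 q.2.1 q.2.2).re < 0 := by
    rintro ⟨t, d, z⟩ ⟨⟨ht, hd, hz⟩, hS'⟩
    refine hneg (t, z) hS' ht ?_ d hd.1
    rintro rfl
    simp at hz
  obtain ⟨δ, hδ0, hδ⟩ : ∃ δ > 0, ∀ q ∈ K, (G q.1 q.2.1 q.2.2).re ≤ -δ := by
    rcases K.eq_empty_or_nonempty with he | hne
    · exact ⟨1, one_pos, fun q hq => by rw [he] at hq; exact absurd hq (notMem_empty q)⟩
    · obtain ⟨q₀, hq₀, hmax⟩ := hKc.exists_isMaxOn hne hcont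
      exact ⟨-(G q₀.1 q₀.2.1 q₀.2.2).re, by have := hneg' q₀ hq₀; linarith, fun q hq => by
        have : (G q.1 q.2.1 q.2.2).re ≤ (G q₀.1 q₀.2.1 q₀.2.2).re := hmax hq
        linarith⟩
  refine ⟨δ, hδ0, ?_⟩
  rintro ⟨t, z⟩ hp ht d hd
  show (G t d z).re ≤ -(δ * ‖z‖)
  rcases eq_or_ne z 0 with rfl | hz
  · rw [h.zero t ht d hd]; simp
  have hn : 0 < ‖z‖ := norm_pos_iff.mpr hz
  -- reduce to `d ≤ C ‖z‖`
  have key : ∀ d : ℝ, 0 ≤ d → d ≤ C * ‖z‖ → (G t d z).re ≤ -(δ * ‖z‖) := by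
    intro d hd hdC
    have h1 : G t d z = ‖z‖ • G t (‖z‖⁻¹ * d) (‖z‖⁻¹ • z) := by
      rw [← h.hom t ht ‖z‖ hn.le _ (by positivity), ← mul_assoc, mul_inv_cancel₀ hn.ne', one_mul,
        smul_smul, mul_inv_cancel₀ hn.ne', one_smul]
    have h2 : (t, (‖z‖⁻¹ * d, ‖z‖⁻¹ • z)) ∈ K := by
      refine ⟨⟨ht, ⟨by positivity, ?_⟩, ?_⟩, ?_⟩
      · rw [inv_mul_le_iff₀ hn, mul_comm]; exact hdC
      · rw [mem_sphere_zero_iff_norm, norm_smul, norm_inv, norm_norm, inv_mul_cancel₀ hn.ne']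
      · exact hScone (t, z) hp _ (inv_pos.mpr hn)
    have h3 := hδ _ h2
    rw [h1, Complex.real_smul, Complex.re_ofReal_mul]
    have h4 : ‖z‖ * (G t (‖z‖⁻¹ * d) (‖z‖⁻¹ • z)).re ≤ ‖z‖ * -δ :=
      mul_le_mul_of_nonneg_left h3 hn.le
    linarith
  rcases le_total d (C * ‖z‖) with hdC | hdC
  · exact key d hd hdC
  · rw [h.sat t ht d z hdC]
    exact key _ (by positivity) le_rfl

/-- Congruence on the parameter set. -/
theorem TameZ.congr {E : Type*} [NormedAddCommGroup E] [NormedSpace ℝ E] {s : Set Θ}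
    {Z : Θ → Set ℂ} {F F' : Θ → E × ℂ → ℂ} (h : TameZ s Z F) (hF : ∀ t ∈ s, ∀ p, F t p = F' t p) :
    TameZ s Z F' where
  fam :=
    { cont := h.fam.cont.congr fun p hp => (hF p.1 hp.1 p.2).symm
      hom := fun t ht r hr x => by
        rw [← hF t ht, ← hF t ht]; exact h.fam.hom t ht r hr x
      reg := fun t ht x hx h0 => by
        rw [← hF t ht] at h0
        refine (h.fam.reg t ht x hx h0).congr ⟨univ, univ_mem, ?_⟩
        filter_upwards [self_mem_nhdsWithin] with t' ht' y _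
        exact hF t' ht' y }
  zreg := fun t ht p hp hp0 h0 => by
    rw [← hF t ht] at h0
    refine RegAt.congr (h.zreg t ht p hp hp0 h0) ⟨univ, univ_mem, ?_⟩
    filter_upwards [self_mem_nhdsWithin] with q hq X _
    exact hF q.1 hq.1 (X, q.2)

/-- The data of a chain of gates, without Lipschitz conditions. -/
structure GateData0 (s : Set Θ) (G₁ : ℕ → Θ → ℂ → ℂ) (G : ℕ → Θ → ℝ → ℂ → ℂ)
    (χ : ℕ → List ℕ → Θ → ℂ → ℝ) (S : ℕ → List ℕ → Set (Θ × ℂ)) (ok : ℕ → List ℕ → Prop) :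
    Prop where
  first : ∀ a, ok a [] → HFam s (G₁ a)
  first_neg : ∀ a, ok a [] → ∀ p ∈ S a [], p.1 ∈ s → p.2 ≠ 0 → (G₁ a p.1 p.2).re < 0
  planar : ∀ a b c, ok a (b :: c) → ∃ C, Planar0 s C (G a)
  closed : ∀ a b c, ok a (b :: c) → IsClosed (S a (b :: c))
  cone : ∀ a c, ok a c → ∀ p ∈ S a c, ∀ r : ℝ, 0 < r → (p.1, r • p.2) ∈ S a c
  neg : ∀ a b c, ok a (b :: c) → ∀ p ∈ S a (b :: c), p.1 ∈ s → p.2 ≠ 0 → ∀ d : ℝ, 0 ≤ d →
    (G a p.1 d p.2).re < 0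
  χ_cont : ∀ a b c, ok a (b :: c) →
    ContinuousOn (fun p : Θ × ℂ => χ a (b :: c) p.1 p.2) (s ×ˢ univ)
  χ_hom : ∀ a b c, ok a (b :: c) → ∀ t ∈ s, ∀ r : ℝ, 0 ≤ r → ∀ y : ℂ,
    χ a (b :: c) t (r • y) = r * χ a (b :: c) t y
  χ_nonneg : ∀ a b c, ok a (b :: c) → ∀ t ∈ s, ∀ y, 0 ≤ χ a (b :: c) t y
  χ_cases : ∀ a b c, ok a (b :: c) → ∀ t ∈ s, ∀ y : ℂ, y ≠ 0 →
    (∃ U ∈ 𝓝 y, ∀ᶠ t' in 𝓝[s] t, ∀ y' ∈ U, χ a (b :: c) t' y' = 0) ∨
      (t, y) ∈ S b c ∨ ‖y‖ ≤ χ a (b :: c) t y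

/-- The cones of values of the last variable. -/
def cones (S : Set (Θ × ℂ)) (t : Θ) : Set ℂ := {y | y = 0 ∨ (t, y) ∈ S}

/-- A planar family with a gate function is a level. -/
theorem Planar0.level {s : Set Θ} (hs : IsCompact s) {C : ℝ} {G : Θ → ℝ → ℂ → ℂ}
    (h : Planar0 s C G) {S S' : Set (Θ × ℂ)} {χ : Θ → ℂ → ℝ} (hS' : IsClosed S')
    (hScone : ∀ p ∈ S', ∀ r : ℝ, 0 < r → (p.1, r • p.2) ∈ S')
    (hneg : ∀ p ∈ S', p.1 ∈ s → p.2 ≠ 0 → ∀ d : ℝ, 0 ≤ d → (G p.1 d p.2).re < 0)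
    (hχc : ContinuousOn (fun p : Θ × ℂ => χ p.1 p.2) (s ×ˢ univ))
    (hχh : ∀ t ∈ s, ∀ r : ℝ, 0 ≤ r → ∀ y : ℂ, χ t (r • y) = r * χ t y)
    (hχn : ∀ t ∈ s, ∀ y, 0 ≤ χ t y)
    (hχ : ∀ t ∈ s, ∀ y : ℂ, y ≠ 0 → (∃ U ∈ 𝓝 y, ∀ᶠ t' in 𝓝[s] t, ∀ y' ∈ U, χ t' y' = 0) ∨
      (t, y) ∈ S ∨ ‖y‖ ≤ χ t y) :
    Level s (cones S) (cones S') (fun t y z => G t (χ t y) z) := by
  have hC := h.cpos
  -- local independence
  have hind0 : ∀ t₀ y₀ z₀, (∃ U ∈ 𝓝 y₀, ∀ᶠ t' in 𝓝[s] t₀, ∀ y' ∈ U, χ t' y' = 0) →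
      Indep s (fun t y z => G t (χ t y) z) t₀ y₀ z₀ := by
    rintro t₀ y₀ z₀ ⟨U, hU, hev⟩
    refine ⟨U, hU, ?_⟩
    have h3 : Tendsto Prod.fst (𝓝[s ×ˢ (univ : Set ℂ)] (t₀, z₀)) (𝓝[s] t₀) :=
      continuousWithinAt_fst.tendsto_nhdsWithin fun p hp => hp.1
    filter_upwards [h3.eventually hev] with p hp y hy y' hy'
    rw [hp y hy, hp y' hy']
  have hind1 : ∀ t₀ ∈ s, ∀ y₀ z₀, C * ‖z₀‖ < χ t₀ y₀ →
      Indep s (fun t y z => G t (χ t y) z) t₀ y₀ z₀ := by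
    intro t₀ ht₀ y₀ z₀ hlt
    have h1 : ContinuousWithinAt (fun p : Θ × ℂ => χ p.1 p.2) (s ×ˢ univ) (t₀, y₀) :=
      hχc (t₀, y₀) ⟨ht₀, mem_univ _⟩
    set a : ℝ := (C * ‖z₀‖ + χ t₀ y₀) / 2 with ha
    have h2 : ∀ᶠ p : Θ × ℂ in 𝓝[s] t₀ ×ˢ 𝓝 y₀, a < χ p.1 p.2 := by
      have h3 := h1.eventually (Ioi_mem_nhds (show a < χ t₀ y₀ by rw [ha]; linarith))
      rw [nhdsWithin_prod_eq, nhdsWithin_univ] at h3
      exact h3
    rw [eventually_prod_iff] at h2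
    obtain ⟨pa, hpa, pb, hpb, hab⟩ := h2
    refine ⟨{y | pb y}, hpb, ?_⟩
    have h4 : ∀ᶠ z : ℂ in 𝓝 z₀, C * ‖z‖ < a := by
      have hc : ContinuousAt (fun z : ℂ => C * ‖z‖) z₀ := by fun_prop
      exact hc.eventually (Iio_mem_nhds (show C * ‖z₀‖ < a by rw [ha]; linarith))
    have h5 : Tendsto Prod.fst (𝓝[s ×ˢ (univ : Set ℂ)] (t₀, z₀)) (𝓝[s] t₀) :=
      continuousWithinAt_fst.tendsto_nhdsWithin fun p hp => hp.1
    have h6 : Tendsto Prod.snd (𝓝[s ×ˢ (univ : Set ℂ)] (t₀, z₀)) (𝓝 z₀) := continuousWithinAt_snd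
    filter_upwards [h5.eventually hpa, h6.eventually h4, self_mem_nhdsWithin]
      with p e1 e2 e3 y hy y' hy'
    show G p.1 (χ p.1 y) p.2 = G p.1 (χ p.1 y') p.2
    rw [h.sat p.1 e3.1 _ _ (e2.le.trans (hab e1 hy).le),
      h.sat p.1 e3.1 _ _ (e2.le.trans (hab e1 hy').le)]
  refine ⟨?_, ?_, fun t ht y => h.zero t ht _ (hχn t ht y), ?_, ?_, ?_, ?_⟩
  · -- continuity
    have h1 : ContinuousOn (fun p : Θ × (ℂ × ℂ) => (p.1, (χ p.1 p.2.1, p.2.2))) (s ×ˢ univ) := by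
      refine continuousOn_fst.prodMk (ContinuousOn.prodMk ?_ continuousOn_snd.snd)
      exact hχc.comp (f := fun p : Θ × (ℂ × ℂ) => (p.1, p.2.1))
        (continuousOn_fst.prodMk continuousOn_snd.fst) fun p hp => ⟨hp.1, mem_univ _⟩
    exact h.cont.comp h1 fun p hp => ⟨hp.1, hχn p.1 hp.1 _, mem_univ _⟩
  · intro t ht r hr y z
    rw [hχh t ht r hr, h.hom t ht r hr _ (hχn t ht y)]
  · -- small
    intro t₀ ht₀ y₀ hy₀ ε hε
    have hy : y₀ ≠ 0 := fun e => hy₀ (Or.inl e)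
    have hI : Indep s (fun t y z => G t (χ t y) z) t₀ y₀ 0 := by
      rcases hχ t₀ ht₀ y₀ hy with h1 | h1 | h1
      · exact hind0 _ _ _ h1
      · exact absurd (Or.inr h1) hy₀
      · refine hind1 t₀ ht₀ y₀ 0 ?_
        have : 0 < ‖y₀‖ := norm_pos_iff.mpr hy
        rw [norm_zero, mul_zero]; linarith
    obtain ⟨U, hU, hev⟩ := hI
    refine ⟨U, hU, ?_⟩
    filter_upwards [hev] with p hp y hy y' hy'
    rw [hp y hy y' hy', sub_self, norm_zero]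
    positivity
  · -- reg
    intro t₀ ht₀ y₀ z₀ hz₀ h0
    have h1 := h.reg t₀ ht₀ _ (hχn t₀ ht₀ y₀) z₀ hz₀ h0
    refine RegAt.param (s := s ×ˢ Ici (0 : ℝ)) (φ := fun q : Θ × ℂ => (q.1, χ q.1 q.2))
      (F := fun (p : Θ × ℝ) z => G p.1 p.2 z) (t := (t₀, y₀)) ?_
      (fun q hq => ⟨hq.1, hχn _ hq.1 _⟩) h1
    exact ContinuousWithinAt.prodMk continuousWithinAt_fst (hχc (t₀, y₀) ⟨ht₀, mem_univ _⟩)
  · -- far
    refine ⟨C + 1, by positivity, fun t₀ ht₀ y₀ z₀ hz₀ hle => ?_⟩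
    have hzn : 0 < ‖z₀‖ := norm_pos_iff.mpr hz₀
    rcases eq_or_ne y₀ 0 with rfl | hy
    · exact Or.inl (Or.inl rfl)
    rcases hχ t₀ ht₀ y₀ hy with h1 | h1 | h1
    · exact Or.inr (hind0 _ _ _ h1)
    · exact Or.inl (Or.inr h1)
    · exact Or.inr (hind1 t₀ ht₀ y₀ z₀ (by nlinarith))
  · -- next
    obtain ⟨δ, hδ0, hδ⟩ := h.exists_delta hs hS' hScone hneg
    refine ⟨δ, hδ0, ?_⟩
    rintro t₀ ht₀ y₀ z₀ (rfl | hz₀)
    · rw [h.zero t₀ ht₀ _ (hχn t₀ ht₀ y₀)]; simp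
    · exact hδ (t₀, z₀) hz₀ ht₀ _ (hχn t₀ ht₀ y₀)

section

variable {G₁ : ℕ → Θ → ℂ → ℂ} {G : ℕ → Θ → ℝ → ℂ → ℂ} {χ : ℕ → List ℕ → Θ → ℂ → ℝ}

/-- The first level. -/
theorem GateData0.tame_first {s : Set Θ} {S : ℕ → List ℕ → Set (Θ × ℂ)}
    {ok : ℕ → List ℕ → Prop} (h : GateData0 s G₁ G χ S ok) {a : ℕ} (ha : ok a []) (κ : List ℝ) :
    TameZ s (cones (S a [])) (gch G₁ G χ κ [a] : Θ → Sp [] × ℂ → ℂ) := by
  have h1 := h.first a ha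
  refine ⟨⟨?_, fun t ht r hr p => h1.hom t ht r hr p.2, fun t ht p hp h0 => ?_⟩,
    fun t ht p hpZ hp h0 => ?_⟩
  · exact h1.cont.comp (f := fun p : Θ × (Sp [] × ℂ) => (p.1, p.2.2))
      (by exact (by fun_prop : Continuous fun p : Θ × (Sp [] × ℂ) => (p.1, p.2.2)).continuousOn)
      (fun p hp => ⟨hp.1, mem_univ _⟩)
  · have hz : p.2 ≠ 0 := fun e => hp (Prod.ext (Subsingleton.elim _ _) e)
    refine RegAt.snd ?_
    exact RegAt.param (φ := Prod.fst) (F := G₁ a) (t := (t, p.1)) continuousWithinAt_fst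
      (fun q hq => hq.1) (h1.reg t ht p.2 hz h0)
  · have hz : p.2 ≠ 0 := fun e => hp (Prod.ext (Subsingleton.elim _ _) e)
    rcases hpZ with h2 | h2
    · exact absurd h2 hz
    · exact absurd h0 (not_le.mpr (h.first_neg a ha (t, p.2) h2 ht hz))

/-- **Chains of gates are tame**, without Lipschitz conditions. -/
theorem GateData0.tame {s : Set Θ} (hs : IsCompact s) {S : ℕ → List ℕ → Set (Θ × ℂ)}
    {ok : ℕ → List ℕ → Prop} (h : GateData0 s G₁ G χ S ok) :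
    ∀ (c : List ℕ) (a : ℕ), OkAll ok (a :: c) → Nest c.length fun κ =>
      TameZ s (cones (S a c)) (gch G₁ G χ κ (a :: c) : Θ → Sp c × ℂ → ℂ)
  | [], a, hok => h.tame_first hok.1 []
  | b :: c, a, hok => by
    have ih := GateData0.tame hs h c b hok.2
    refine Nest.mono (n := c.length) ih fun κ _ hκ => ?_
    obtain ⟨C, hP⟩ := h.planar a b c hok.1
    have hL : Level s (cones (S b c)) (cones (S a (b :: c)))
        (fun t y z => G a t (χ a (b :: c) t y) z) :=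
      hP.level hs (h.closed a b c hok.1) (h.cone a (b :: c) hok.1) (h.neg a b c hok.1)
        (h.χ_cont a b c hok.1) (h.χ_hom a b c hok.1) (h.χ_nonneg a b c hok.1)
        (h.χ_cases a b c hok.1)
    obtain ⟨l₀, hl₀, hatt⟩ := TameZ.attach (E := Sp c) hs (fun t _ => Or.inl rfl)
      (fun t _ r hr y hy => by
        rcases hy with rfl | hy
        · exact Or.inl (smul_zero r)
        · exact Or.inr (h.cone b c hok.2.1 (t, y) hy r hr)) hκ hL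
    filter_upwards [eventually_ge_atTop l₀] with k hk
    have hk0 : 0 ≤ k := hl₀.le.trans hk
    refine (hatt (fun _ => k) continuousOn_const (fun _ _ => hk)).congr fun t ht p => ?_
    show gch G₁ G χ κ (b :: c) t p.1 + G a t (χ a (b :: c) t (k • p.1.2)) p.2 = _
    rw [h.χ_hom a b c hok.1 t ht k hk0, gch_cons]

end

section

variable {Θ : Type} [TopologicalSpace Θ]
  {G₁ : ℕ → Θ → ℂ → ℂ} {G : ℕ → Θ → ℝ → ℂ → ℂ} {χ : ℕ → List ℕ → Θ → ℂ → ℝ}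

/-- Two chains of gates in a connected family are equivalent. -/
theorem GateData0.hEqv {s : Set Θ} (hs : IsCompact s) (hs' : IsPreconnected s)
    {S : ℕ → List ℕ → Set (Θ × ℂ)} {ok : ℕ → List ℕ → Prop} (h : GateData0 s G₁ G χ S ok)
    {c : List ℕ} (hc : c ≠ []) (hok : OkAll ok c) {t t' : Θ} (ht : t ∈ s) (ht' : t' ∈ s) :
    Nest (c.length - 1) fun κ => HEqv (gch G₁ G χ κ c t) (gch G₁ G χ κ c t') := by
  obtain ⟨a, c, rfl⟩ := List.exists_cons_of_ne_nil hc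
  refine (GateData0.tame hs h c a hok).mono fun κ _ hκ => ?_
  exact HEqv.of_fam (E := Sp c × ℂ) hs' hκ.fam ht ht'

/-- The members of a family of chains of gates are of class `H`. -/
theorem GateData0.hFun {s : Set Θ} (hs : IsCompact s)
    {S : ℕ → List ℕ → Set (Θ × ℂ)} {ok : ℕ → List ℕ → Prop} (h : GateData0 s G₁ G χ S ok)
    {c : List ℕ} (hc : c ≠ []) (hok : OkAll ok c) :
    Nest (c.length - 1) fun κ => ∀ t ∈ s, HFun (gch G₁ G χ κ c t) := by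
  obtain ⟨a, c, rfl⟩ := List.exists_cons_of_ne_nil hc
  refine (GateData0.tame hs h c a hok).mono fun κ _ hκ t ht => ?_
  exact hκ.fam.at ht

end

end Vale.Agent.P268.T.GL
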