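import Vale.Agent.P268.T.H548.Tail

/-!
# P268, topological half: the gated level lemma

`TameZ s Z F`: an `H`-family `F` on `E × ℂ` which at the points `(X, y)`, `y ∈ Z`, is regular in
the direction of `X`, with `y` as a parameter.  `Level s Z Z' m`: a family of functions `m t y z`
which is of class `H` along `z` and which, for `‖y‖` large compared with `‖z‖`, is locally
independent of `y` or has `y ∈ Z`.

`TameZ.attach`: for all large strengths `l`, `F t (X, y) + m t (l t • y) z` is tame again.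
-/

set_option linter.unusedSectionVars false

namespace Vale.Agent.P268.T.GL

open Set Filter Topology

section Open

variable {V : Type*} [NormedAddCommGroup V] [NormedSpace ℝ V]
  {W : Type*} [NormedAddCommGroup W] [NormedSpace ℝ W]
  {Y : Type*} [NormedAddCommGroup Y] [NormedSpace ℝ Y]
  {Θ : Type*} [TopologicalSpace Θ]

/-- Regularity is an open condition. -/
theorem RegAt.eventually {s : Set Θ} {F : Θ → W → Y} {t₀ : Θ} {x₀ : W} (h : RegAt s F t₀ x₀) :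
    ∀ᶠ p in 𝓝[s] t₀ ×ˢ 𝓝 x₀, RegAt s F p.1 p.2 := by
  obtain ⟨k, hk0, hk1, A, U, hU, hev⟩ := h
  have h1 : ∀ᶠ t in 𝓝[s] t₀, ∀ᶠ t' in 𝓝[s] t, MRegOn k (F t') A U :=
    eventually_eventually_nhdsWithin.mpr hev
  have h2 : ∀ᶠ x in 𝓝 x₀, U ∈ 𝓝 x := eventually_mem_nhds_iff.mpr hU
  filter_upwards [h1.prod_mk h2] with p hp
  exact ⟨k, hk0, hk1, A, U, hp.2, hp.1⟩

/-- Scaling of a parameter together with the fibre variable. -/
theorem RegAt.scale₂ {s : Set Θ} {G : Θ → V → W → Y}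
    (hG : ∀ t ∈ s, ∀ r : ℝ, 0 ≤ r → ∀ v w, G t (r • v) (r • w) = r • G t v w) {t₀ : Θ} {v₀ : V}
    {w₀ : W} {r : ℝ} (hr : 0 < r)
    (h : RegAt (s ×ˢ (univ : Set V)) (fun (q : Θ × V) w => G q.1 q.2 w) (t₀, v₀) w₀) :
    RegAt (s ×ˢ (univ : Set V)) (fun (q : Θ × V) w => G q.1 q.2 w) (t₀, r • v₀) (r • w₀) := by
  obtain ⟨k, hk0, hk1, A, U, hU, hev⟩ := h
  have hri : 0 < r⁻¹ := inv_pos.mpr hr
  have hU' : {w : W | r⁻¹ • w ∈ U} ∈ 𝓝 (r • w₀) := by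
    have hc : ContinuousAt (fun w : W => r⁻¹ • w) (r • w₀) := by fun_prop
    apply hc
    show U ∈ 𝓝 (r⁻¹ • (r • w₀))
    rwa [smul_smul, inv_mul_cancel₀ hr.ne', one_smul]
  have hT : Tendsto (fun q : Θ × V => (q.1, r⁻¹ • q.2)) (𝓝[s ×ˢ (univ : Set V)] (t₀, r • v₀))
      (𝓝[s ×ˢ (univ : Set V)] (t₀, v₀)) := by
    have hc : ContinuousWithinAt (fun q : Θ × V => (q.1, r⁻¹ • q.2)) (s ×ˢ (univ : Set V))
        (t₀, r • v₀) :=
      continuousWithinAt_fst.prodMk (continuousWithinAt_snd.const_smul _)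
    have h2 := hc.tendsto_nhdsWithin (t := s ×ˢ (univ : Set V)) fun q hq => ⟨hq.1, mem_univ _⟩
    simpa [smul_smul, inv_mul_cancel₀ hr.ne'] using h2
  refine ⟨k, hk0, hk1, A, _, hU', ?_⟩
  filter_upwards [hT.eventually hev, self_mem_nhdsWithin] with q hq hqs w hw c hc
  have e1 : ∀ w : W, G q.1 q.2 w = r • G q.1 (r⁻¹ • q.2) (r⁻¹ • w) := by
    intro w
    rw [← hG q.1 hqs.1 r hr.le, smul_smul, smul_smul, mul_inv_cancel₀ hr.ne', one_smul, one_smul]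
  show ‖G q.1 q.2 (w + A c) - G q.1 q.2 w - c‖ ≤ k * ‖c‖
  have e2 : r⁻¹ • (w + A c) = r⁻¹ • w + A (r⁻¹ • c) := by rw [smul_add, map_smul]
  have h3 := hq (r⁻¹ • w) hw (r⁻¹ • c) (by rw [← e2]; exact hc)
  rw [e1, e1 w, e2]
  have e3 : r • G q.1 (r⁻¹ • q.2) (r⁻¹ • w + A (r⁻¹ • c)) - r • G q.1 (r⁻¹ • q.2) (r⁻¹ • w) - c =
      r • (G q.1 (r⁻¹ • q.2) (r⁻¹ • w + A (r⁻¹ • c)) - G q.1 (r⁻¹ • q.2) (r⁻¹ • w) -
        r⁻¹ • c) := by
    rw [smul_sub, smul_sub, smul_smul, mul_inv_cancel₀ hr.ne', one_smul]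
  rw [e3, norm_smul, Real.norm_eq_abs, abs_of_pos hr]
  calc r * ‖G q.1 (r⁻¹ • q.2) (r⁻¹ • w + A (r⁻¹ • c)) - G q.1 (r⁻¹ • q.2) (r⁻¹ • w) - r⁻¹ • c‖
      ≤ r * (k * ‖r⁻¹ • c‖) := mul_le_mul_of_nonneg_left h3 hr.le
    _ = k * ‖c‖ := by
      rw [norm_smul, Real.norm_eq_abs, abs_of_pos hri]
      field_simp

end Open

variable {E : Type*} [NormedAddCommGroup E] [NormedSpace ℝ E]
  {Θ : Type*} [TopologicalSpace Θ]

/-- Regularity in the direction of the first variables, with the last one as a parameter. -/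
def XReg (s : Set Θ) (F : Θ → E × ℂ → ℂ) (t₀ : Θ) (p : E × ℂ) : Prop :=
  RegAt (s ×ˢ (univ : Set ℂ)) (fun (q : Θ × ℂ) X => F q.1 (X, q.2)) (t₀, p.2) p.1

/-- Regularity of a level function along its own variable. -/
def ZReg (s : Set Θ) (m : Θ → ℂ → ℂ → ℂ) (t₀ : Θ) (y₀ z₀ : ℂ) : Prop :=
  RegAt (s ×ˢ (univ : Set ℂ)) (fun (q : Θ × ℂ) z => m q.1 q.2 z) (t₀, y₀) z₀

/-- Local independence of `y`. -/
def Indep (s : Set Θ) (m : Θ → ℂ → ℂ → ℂ) (t₀ : Θ) (y₀ z₀ : ℂ) : Prop :=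
  ∃ U ∈ 𝓝 y₀, ∀ᶠ p in 𝓝[s ×ˢ (univ : Set ℂ)] (t₀, z₀), ∀ y ∈ U, ∀ y' ∈ U,
    m p.1 y p.2 = m p.1 y' p.2

/-- Tame families with a cone `Z` of values of the last variable. -/
structure TameZ (s : Set Θ) (Z : Θ → Set ℂ) (F : Θ → E × ℂ → ℂ) : Prop where
  fam : HFam s F
  zreg : ∀ t₀ ∈ s, ∀ p : E × ℂ, p.2 ∈ Z t₀ → p ≠ 0 → 0 ≤ (F t₀ p).re → XReg s F t₀ p

/-- Level functions. -/
structure Level (s : Set Θ) (Z Z' : Θ → Set ℂ) (m : Θ → ℂ → ℂ → ℂ) : Prop where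
  cont : ContinuousOn (fun p : Θ × (ℂ × ℂ) => m p.1 p.2.1 p.2.2) (s ×ˢ univ)
  hom : ∀ t ∈ s, ∀ r : ℝ, 0 ≤ r → ∀ y z : ℂ, m t (r • y) (r • z) = r • m t y z
  zero : ∀ t ∈ s, ∀ y, m t y 0 = 0
  small : ∀ t₀ ∈ s, ∀ y₀ : ℂ, y₀ ∉ Z t₀ → ∀ ε > 0, ∃ U ∈ 𝓝 y₀,
    ∀ᶠ p in 𝓝[s ×ˢ (univ : Set ℂ)] (t₀, (0 : ℂ)), ∀ y ∈ U, ∀ y' ∈ U,
      ‖m p.1 y p.2 - m p.1 y' p.2‖ ≤ ε * ‖y - y'‖
  reg : ∀ t₀ ∈ s, ∀ y₀ z₀ : ℂ, z₀ ≠ 0 → 0 ≤ (m t₀ y₀ z₀).re → ZReg s m t₀ y₀ z₀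
  far : ∃ R : ℝ, 0 < R ∧ ∀ t₀ ∈ s, ∀ y₀ z₀ : ℂ, z₀ ≠ 0 → R * ‖z₀‖ ≤ ‖y₀‖ →
    y₀ ∈ Z t₀ ∨ Indep s m t₀ y₀ z₀
  next : ∃ δ : ℝ, 0 < δ ∧ ∀ t₀ ∈ s, ∀ y₀ : ℂ, ∀ z₀ ∈ Z' t₀, (m t₀ y₀ z₀).re ≤ -(δ * ‖z₀‖)

theorem XReg.smul {s : Set Θ} {F : Θ → E × ℂ → ℂ} (hF : ∀ t ∈ s, Hom1 (F t)) {t₀ : Θ} {p : E × ℂ}
    {r : ℝ} (hr : 0 < r) (h : XReg s F t₀ p) : XReg s F t₀ (r • p) := by
  have := RegAt.scale₂ (s := s) (G := fun t (y : ℂ) (X : E) => F t (X, y))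
    (fun t ht r hr y X => hF t ht r hr (X, y)) (v₀ := p.2) (w₀ := p.1) hr h
  exact this

theorem ZReg.smul {s : Set Θ} {m : Θ → ℂ → ℂ → ℂ}
    (hm : ∀ t ∈ s, ∀ r : ℝ, 0 ≤ r → ∀ y z : ℂ, m t (r • y) (r • z) = r • m t y z) {t₀ : Θ}
    {y z : ℂ} {r : ℝ} (hr : 0 < r) (h : ZReg s m t₀ y z) : ZReg s m t₀ (r • y) (r • z) :=
  RegAt.scale₂ (s := s) (G := m) hm hr h

theorem XReg.mono {s s' : Set Θ} (hs : s' ⊆ s) {F : Θ → E × ℂ → ℂ} {t₀ : Θ} {p : E × ℂ}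
    (h : XReg s F t₀ p) : XReg s' F t₀ p :=
  RegAt.mono (prod_mono hs Subset.rfl) h

theorem TameZ.mono {s s' : Set Θ} (hs : s' ⊆ s) {Z Z' : Θ → Set ℂ} (hZ : ∀ t ∈ s', Z' t ⊆ Z t)
    {F : Θ → E × ℂ → ℂ} (h : TameZ s Z F) : TameZ s' Z' F :=
  ⟨h.fam.mono hs, fun t ht p hp h0 h1 => (h.zreg t (hs ht) p (hZ t ht hp) h0 h1).mono hs⟩

theorem TameZ.param {Θ' : Type*} [TopologicalSpace Θ'] {s : Set Θ} {s' : Set Θ'} {Z : Θ → Set ℂ}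
    {F : Θ → E × ℂ → ℂ} (h : TameZ s Z F) {φ : Θ' → Θ} (hφ : ContinuousOn φ s')
    (hs : MapsTo φ s' s) : TameZ s' (fun t => Z (φ t)) (fun t => F (φ t)) where
  fam := h.fam.param hφ hs
  zreg := fun t ht p hp hp0 h0 => by
    refine RegAt.param (s := s ×ˢ (univ : Set ℂ)) (φ := fun p : Θ' × ℂ => (φ p.1, p.2))
      (F := fun (p : Θ × ℂ) X => F p.1 (X, p.2)) ?_ ?_ (h.zreg _ (hs ht) p hp hp0 h0)
    · refine ContinuousWithinAt.prodMk ?_ continuousWithinAt_snd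
      exact (hφ t ht).comp continuousWithinAt_fst fun p hp => hp.1
    · exact fun p hp => ⟨hs hp.1, mem_univ _⟩

/-- The openness of `XReg`, jointly in all variables. -/
theorem XReg.eventually {s : Set Θ} {F : Θ → E × ℂ → ℂ} {t₀ : Θ} {p₀ : E × ℂ}
    (h : XReg s F t₀ p₀) : ∀ᶠ q in 𝓝[s ×ˢ (univ : Set (E × ℂ))] (t₀, p₀), XReg s F q.1 q.2 := by
  have h1 := RegAt.eventually h
  have h2 : Tendsto (fun q : Θ × (E × ℂ) => ((q.1, q.2.2), q.2.1))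
      (𝓝[s ×ˢ (univ : Set (E × ℂ))] (t₀, p₀))
      (𝓝[s ×ˢ (univ : Set ℂ)] (t₀, p₀.2) ×ˢ 𝓝 p₀.1) := by
    refine Tendsto.prodMk ?_ ?_
    · have hc : ContinuousWithinAt (fun q : Θ × (E × ℂ) => (q.1, q.2.2))
          (s ×ˢ (univ : Set (E × ℂ))) (t₀, p₀) :=
        continuousWithinAt_fst.prodMk continuousWithinAt_snd.snd
      exact hc.tendsto_nhdsWithin fun q hq => ⟨hq.1, mem_univ _⟩
    · exact (continuousWithinAt_snd.fst :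
        ContinuousWithinAt (fun q : Θ × (E × ℂ) => q.2.1) (s ×ˢ univ) (t₀, p₀))
  exact h2.eventually h1

/-- The openness of `ZReg`, jointly in all variables. -/
theorem ZReg.eventually {s : Set Θ} {m : Θ → ℂ → ℂ → ℂ} {t₀ : Θ} {y₀ z₀ : ℂ}
    (h : ZReg s m t₀ y₀ z₀) :
    ∀ᶠ q : Θ × (ℂ × ℂ) in 𝓝[s ×ˢ (univ : Set (ℂ × ℂ))] (t₀, (y₀, z₀)),
      ZReg s m q.1 q.2.1 q.2.2 := by
  have h1 := RegAt.eventually h
  have h2 : Tendsto (fun q : Θ × (ℂ × ℂ) => ((q.1, q.2.1), q.2.2))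
      (𝓝[s ×ˢ (univ : Set (ℂ × ℂ))] (t₀, (y₀, z₀)))
      (𝓝[s ×ˢ (univ : Set ℂ)] (t₀, y₀) ×ˢ 𝓝 z₀) := by
    refine Tendsto.prodMk ?_ ?_
    · have hc : ContinuousWithinAt (fun q : Θ × (ℂ × ℂ) => (q.1, q.2.1))
          (s ×ˢ (univ : Set (ℂ × ℂ))) (t₀, (y₀, z₀)) :=
        continuousWithinAt_fst.prodMk continuousWithinAt_snd.fst
      exact hc.tendsto_nhdsWithin fun q hq => ⟨hq.1, mem_univ _⟩
    · exact (continuousWithinAt_snd.snd :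
        ContinuousWithinAt (fun q : Θ × (ℂ × ℂ) => q.2.2) (s ×ˢ univ) (t₀, (y₀, z₀)))
  exact h2.eventually h1

/-- A closed subset of a compact set, in the relative form used below: if `P` is relatively open
in `s ×ˢ univ`, `K ⊆ s ×ˢ univ` is compact, then `K \ P` is compact. -/
theorem isCompact_diff_open {X : Type*} [TopologicalSpace X] {K S : Set X} (hK : IsCompact K)
    (hKS : K ⊆ S) {P : X → Prop} (hP : ∀ x ∈ S, P x → ∀ᶠ y in 𝓝[S] x, P y) :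
    IsCompact {x | x ∈ K ∧ ¬ P x} := by
  choose! O hO hO' using fun x (hx : x ∈ S ∧ P x) =>
    (mem_nhdsWithin_iff_exists_mem_nhds_inter.mp (hP x hx.1 hx.2) : ∃ u ∈ 𝓝 x, u ∩ S ⊆ {y | P y})
  have e : {x | x ∈ K ∧ ¬ P x} = K \ ⋃ x ∈ {x | x ∈ S ∧ P x}, interior (O x) := by
    ext x
    constructor
    · rintro ⟨h1, h2⟩
      refine ⟨h1, fun h3 => h2 ?_⟩
      simp only [mem_iUnion] at h3
      obtain ⟨y, hy, hx⟩ := h3
      exact hO' y hy ⟨interior_subset hx, hKS h1⟩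
    · rintro ⟨h1, h2⟩
      refine ⟨h1, fun h3 => h2 ?_⟩
      simp only [mem_iUnion]
      exact ⟨x, ⟨hKS h1, h3⟩, mem_interior_iff_mem_nhds.mpr (hO x ⟨hKS h1, h3⟩)⟩
  rw [e]
  exact hK.diff (isOpen_iUnion fun x => isOpen_iUnion fun _ => isOpen_interior)

/-- Where the real part is large compared with the last variable, a tame family is regular in
the direction of the remaining variables. -/
theorem TameZ.exists_const [FiniteDimensional ℝ E] {s : Set Θ} (hs : IsCompact s)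
    {Z : Θ → Set ℂ} (hZ : ∀ t ∈ s, (0 : ℂ) ∈ Z t) {F : Θ → E × ℂ → ℂ} (hF : TameZ s Z F) :
    ∃ K : ℝ, 0 < K ∧ ∀ t ∈ s, ∀ p : E × ℂ, p ≠ 0 → K * ‖p.2‖ ≤ (F t p).re → XReg s F t p := by
  have : ProperSpace (E × ℂ) := FiniteDimensional.proper ℝ (E × ℂ)
  -- the bad points on the unit sphere
  set N : Set (Θ × (E × ℂ)) := {q | q ∈ s ×ˢ Metric.sphere (0 : E × ℂ) 1 ∧ ¬ XReg s F q.1 q.2}
    with hN
  have hNc : IsCompact N := by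
    refine isCompact_diff_open (S := s ×ˢ (univ : Set (E × ℂ)))
      (hs.prod (isCompact_sphere (0 : E × ℂ) 1)) (prod_mono Subset.rfl (subset_univ _)) ?_
    rintro ⟨t, p⟩ _ h
    exact XReg.eventually h
  have hcont : ContinuousOn (fun q : Θ × (E × ℂ) => F q.1 q.2) (s ×ˢ univ) := hF.fam.cont
  have hNs : N ⊆ s ×ˢ (univ : Set (E × ℂ)) := fun q hq => ⟨hq.1.1, mem_univ _⟩
  -- bad points with nonnegative real part stay away from `y = 0`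
  have hN1c : IsCompact {q | q ∈ N ∧ 0 ≤ (F q.1 q.2).re} := by
    have h1 : ContinuousOn (fun q : Θ × (E × ℂ) => (F q.1 q.2).re) N :=
      Complex.continuous_re.comp_continuousOn (hcont.mono hNs)
    have h2 : {q | q ∈ N ∧ 0 ≤ (F q.1 q.2).re} = {q | q ∈ N ∧ ¬ (F q.1 q.2).re < 0} := by
      ext q; simp
    rw [h2]
    refine isCompact_diff_open (S := N) hNc Subset.rfl ?_
    intro x hx h
    exact (h1 x hx).eventually (Iio_mem_nhds h)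
  have hy0 : ∀ q ∈ {q | q ∈ N ∧ 0 ≤ (F q.1 q.2).re}, 0 < ‖q.2.2‖ := by
    rintro ⟨t, p⟩ ⟨⟨⟨ht, hp⟩, hbad⟩, h0⟩
    refine norm_pos_iff.mpr fun hp2 => hbad ?_
    refine hF.zreg t ht p ?_ ?_ h0
    · show p.2 ∈ Z t
      have : p.2 = 0 := hp2
      rw [this]; exact hZ t ht
    · rintro rfl
      simp at hp
  -- bounds
  obtain ⟨δ, hδ0, hδ⟩ : ∃ δ > 0, ∀ q ∈ {q | q ∈ N ∧ 0 ≤ (F q.1 q.2).re}, δ ≤ ‖q.2.2‖ := by
    rcases Set.eq_empty_or_nonempty {q | q ∈ N ∧ 0 ≤ (F q.1 q.2).re} with he | hne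
    · exact ⟨1, one_pos, fun q hq => by rw [he] at hq; exact absurd hq (notMem_empty q)⟩
    · obtain ⟨q₀, hq₀, hmin⟩ := hN1c.exists_isMinOn hne
        (f := fun q : Θ × (E × ℂ) => ‖q.2.2‖)
        ((continuous_norm.comp (continuous_snd.comp continuous_snd)).continuousOn)
      exact ⟨‖q₀.2.2‖, hy0 q₀ hq₀, fun q hq => hmin hq⟩
  obtain ⟨C, hC⟩ : ∃ C : ℝ, ∀ q ∈ N, (F q.1 q.2).re ≤ C := by
    rcases Set.eq_empty_or_nonempty N with he | hne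
    · exact ⟨0, fun q hq => by rw [he] at hq; exact absurd hq (notMem_empty q)⟩
    · obtain ⟨q₀, _, hmax⟩ := hNc.exists_isMaxOn hne
        (f := fun q : Θ × (E × ℂ) => (F q.1 q.2).re)
        (Complex.continuous_re.comp_continuousOn (hcont.mono hNs))
      exact ⟨_, fun q hq => hmax hq⟩
  refine ⟨(|C| + 1) / δ, by positivity, fun t ht p hp h => ?_⟩
  -- normalise
  have hn : 0 < ‖p‖ := norm_pos_iff.mpr hp
  set u : E × ℂ := ‖p‖⁻¹ • p with hu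
  have hu1 : ‖u‖ = 1 := by
    rw [hu, norm_smul, norm_inv, norm_norm, inv_mul_cancel₀ hn.ne']
  have hpu : p = ‖p‖ • u := by
    rw [hu, smul_smul, mul_inv_cancel₀ hn.ne', one_smul]
  have hFu : (F t p).re = ‖p‖ * (F t u).re := by
    conv_lhs => rw [hpu]
    rw [hF.fam.hom t ht ‖p‖ hn.le u]
    simp
  have h1 : (|C| + 1) / δ * ‖u.2‖ ≤ (F t u).re := by
    have h2 : ‖p.2‖ = ‖p‖ * ‖u.2‖ := by
      conv_lhs => rw [hpu]
      rw [Prod.smul_snd, norm_smul, norm_norm]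
    rw [h2, hFu] at h
    have h3 : ‖p‖ * ((|C| + 1) / δ * ‖u.2‖) ≤ ‖p‖ * (F t u).re := by
      calc ‖p‖ * ((|C| + 1) / δ * ‖u.2‖) = (|C| + 1) / δ * (‖p‖ * ‖u.2‖) := by ring
        _ ≤ _ := h
    exact le_of_mul_le_mul_left h3 hn
  have hXu : XReg s F t u := by
    by_contra hbad
    have hmem : (t, u) ∈ N := ⟨⟨ht, by simpa using hu1⟩, hbad⟩
    have h0 : 0 ≤ (F t u).re := le_trans (by positivity) h1
    have h2 := hδ (t, u) ⟨hmem, h0⟩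
    have h3 : (F t u).re ≤ C := hC (t, u) hmem
    have h4 : |C| + 1 ≤ (|C| + 1) / δ * ‖u.2‖ := by
      rw [div_mul_eq_mul_div, le_div_iff₀ hδ0]
      exact mul_le_mul_of_nonneg_left h2 (by positivity)
    have h5 := le_abs_self C
    linarith
  rw [hpu]
  exact hXu.smul hF.fam.hom hn

/-- Where a level function is not regular along `z` and `y` is bounded by `z`, its real part is
uniformly negative. -/
theorem Level.exists_delta {s : Set Θ} (hs : IsCompact s) {Z Z' : Θ → Set ℂ} {m : Θ → ℂ → ℂ → ℂ}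
    (hm : Level s Z Z' m) (R : ℝ) :
    ∃ δ : ℝ, 0 < δ ∧ ∀ t ∈ s, ∀ y z : ℂ, z ≠ 0 → ‖y‖ ≤ R * ‖z‖ → ¬ ZReg s m t y z →
      (m t y z).re ≤ -(δ * ‖z‖) := by
  set N : Set (Θ × (ℂ × ℂ)) := {q | q ∈ s ×ˢ (Metric.closedBall (0 : ℂ) R ×ˢ
    Metric.sphere (0 : ℂ) 1) ∧ ¬ ZReg s m q.1 q.2.1 q.2.2} with hN
  have hNc : IsCompact N := by
    refine isCompact_diff_open (S := s ×ˢ (univ : Set (ℂ × ℂ)))
      (hs.prod ((isCompact_closedBall (0 : ℂ) R).prod (isCompact_sphere (0 : ℂ) 1)))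
      (prod_mono Subset.rfl (subset_univ _)) ?_
    rintro ⟨t, y, z⟩ _ h
    exact ZReg.eventually h
  have hNs : N ⊆ s ×ˢ (univ : Set (ℂ × ℂ)) := fun q hq => ⟨hq.1.1, mem_univ _⟩
  have hneg : ∀ q ∈ N, (m q.1 q.2.1 q.2.2).re < 0 := by
    rintro ⟨t, y, z⟩ ⟨⟨ht, hy, hz⟩, hbad⟩
    by_contra hcon
    refine hbad (hm.reg t ht y z ?_ (not_lt.mp hcon))
    rintro rfl
    simp at hz
  obtain ⟨δ, hδ0, hδ⟩ : ∃ δ > 0, ∀ q ∈ N, (m q.1 q.2.1 q.2.2).re ≤ -δ := by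
    rcases Set.eq_empty_or_nonempty N with he | hne
    · exact ⟨1, one_pos, fun q hq => by rw [he] at hq; exact absurd hq (notMem_empty q)⟩
    · obtain ⟨q₀, hq₀, hmax⟩ := hNc.exists_isMaxOn hne
        (f := fun q : Θ × (ℂ × ℂ) => (m q.1 q.2.1 q.2.2).re)
        (Complex.continuous_re.comp_continuousOn (hm.cont.mono hNs))
      exact ⟨-(m q₀.1 q₀.2.1 q₀.2.2).re, by have := hneg q₀ hq₀; linarith, fun q hq => by
        have : (m q.1 q.2.1 q.2.2).re ≤ (m q₀.1 q₀.2.1 q₀.2.2).re := hmax hq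
        linarith⟩
  refine ⟨δ, hδ0, fun t ht y z hz hyz hbad => ?_⟩
  have hn : 0 < ‖z‖ := norm_pos_iff.mpr hz
  have hzu : z = ‖z‖ • (‖z‖⁻¹ • z) := by rw [smul_smul, mul_inv_cancel₀ hn.ne', one_smul]
  have hyu : y = ‖z‖ • (‖z‖⁻¹ • y) := by rw [smul_smul, mul_inv_cancel₀ hn.ne', one_smul]
  have hbad' : ¬ ZReg s m t (‖z‖⁻¹ • y) (‖z‖⁻¹ • z) := by
    intro h
    apply hbad
    have := h.smul hm.hom hn
    rwa [← hzu, ← hyu] at this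
  have hmem : (t, (‖z‖⁻¹ • y, ‖z‖⁻¹ • z)) ∈ N := by
    refine ⟨⟨ht, ?_, ?_⟩, hbad'⟩
    · rw [mem_closedBall_zero_iff, norm_smul, norm_inv, norm_norm, inv_mul_le_iff₀ hn, mul_comm]
      exact hyz
    · rw [mem_sphere_zero_iff_norm, norm_smul, norm_inv, norm_norm, inv_mul_cancel₀ hn.ne']
  have h1 : (m t (‖z‖⁻¹ • y) (‖z‖⁻¹ • z)).re ≤ -δ := hδ _ hmem
  have h2 : m t y z = ‖z‖ • m t (‖z‖⁻¹ • y) (‖z‖⁻¹ • z) := by
    rw [← hm.hom t ht _ hn.le, ← hzu, ← hyu]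
  rw [h2, Complex.real_smul, Complex.re_ofReal_mul]
  nlinarith

/-! ### Attaching a level -/

/-- The function obtained by attaching the level function `m` with strength `l`. -/
noncomputable def att (F : Θ → E × ℂ → ℂ) (m : Θ → ℂ → ℂ → ℂ) (l : Θ → ℝ) (t : Θ) (p : (E × ℂ) × ℂ) : ℂ :=
  F t p.1 + m t (l t • p.1.2) p.2

theorem Indep.reg {s : Set Θ} {F : Θ → E × ℂ → ℂ} {m : Θ → ℂ → ℂ → ℂ} {l : Θ → ℝ} {t₀ : Θ}
    (ht₀ : t₀ ∈ s) (hl : ContinuousOn l s) {X₀ : E × ℂ} {z₀ : ℂ}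
    (hm : Indep s m t₀ (l t₀ • X₀.2) z₀) (h : RegAt s F t₀ X₀) :
    RegAt (s ×ˢ (univ : Set ℂ)) (fun (q : Θ × ℂ) (X : E × ℂ) => att F m l q.1 (X, q.2))
      (t₀, z₀) X₀ := by
  obtain ⟨k, hk0, hk1, A, U, hU, hev⟩ := h
  obtain ⟨V, hV, hev'⟩ := hm
  -- for `(t, X)` near `(t₀, X₀)`, `l t • X.2 ∈ V`
  have hc : ContinuousWithinAt (fun q : Θ × (E × ℂ) => l q.1 • q.2.2) (s ×ˢ (univ : Set (E × ℂ)))
      (t₀, X₀) := by
    have hc1 : ContinuousWithinAt (fun q : Θ × (E × ℂ) => l q.1) (s ×ˢ (univ : Set (E × ℂ)))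
        (t₀, X₀) := (hl t₀ ht₀).comp continuousWithinAt_fst fun q hq => hq.1
    have hc2 : ContinuousWithinAt (fun q : Θ × (E × ℂ) => q.2.2) (s ×ˢ (univ : Set (E × ℂ)))
        (t₀, X₀) := continuousWithinAt_snd.snd
    exact hc1.smul hc2
  have h1 : ∀ᶠ q : Θ × (E × ℂ) in 𝓝[s] t₀ ×ˢ 𝓝 X₀, l q.1 • q.2.2 ∈ V := by
    have h2 := hc.eventually (show ∀ᶠ y in 𝓝 (l t₀ • X₀.2), y ∈ V from hV)
    rw [nhdsWithin_prod_eq, nhdsWithin_univ] at h2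
    exact h2
  rw [eventually_prod_iff] at h1
  obtain ⟨pa, ha, pb, hb, hab⟩ := h1
  refine ⟨k, hk0, hk1, A, U ∩ {X | pb X}, inter_mem hU hb, ?_⟩
  have h3 : Tendsto Prod.fst (𝓝[s ×ˢ (univ : Set ℂ)] (t₀, z₀)) (𝓝[s] t₀) :=
    continuousWithinAt_fst.tendsto_nhdsWithin fun p hp => hp.1
  filter_upwards [h3.eventually hev, h3.eventually ha, hev'] with q e1 e2 e3 X hX c hX'
  have e4 := e3 _ (hab e2 hX'.2) _ (hab e2 hX.2)
  show ‖F q.1 (X + A c) + m q.1 (l q.1 • (X + A c).2) q.2 - (F q.1 X + m q.1 (l q.1 • X.2) q.2) -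
    c‖ ≤ k * ‖c‖
  rw [e4, add_sub_add_right_eq_sub]
  exact e1 X hX.1 c hX'.1

/-- From `XReg` to the attached function. -/
theorem XReg.att {s : Set Θ} {F : Θ → E × ℂ → ℂ} {m : Θ → ℂ → ℂ → ℂ} {l : Θ → ℝ} {t₀ : Θ}
    {X₀ : E × ℂ} {z₀ : ℂ} (h : XReg s F t₀ X₀) :
    RegAt (s ×ˢ (univ : Set ℂ)) (fun (q : Θ × ℂ) (X : E × ℂ) => att F m l q.1 (X, q.2))
      (t₀, z₀) X₀ := by
  refine RegAt.fst ?_
  have h2 : RegAt ((s ×ˢ (univ : Set ℂ)) ×ˢ (univ : Set ℂ))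
      (fun (tb : (Θ × ℂ) × ℂ) X => F tb.1.1 (X, tb.2)) ((t₀, z₀), X₀.2) X₀.1 := by
    refine RegAt.param (s := s ×ˢ (univ : Set ℂ)) (φ := fun tb : (Θ × ℂ) × ℂ => (tb.1.1, tb.2))
      (F := fun (p : Θ × ℂ) X => F p.1 (X, p.2)) ?_ (fun p hp => ⟨hp.1.1, mem_univ _⟩) h
    exact (continuousWithinAt_fst.fst).prodMk continuousWithinAt_snd
  have h3 := RegAt.add_const h2 (fun tb : (Θ × ℂ) × ℂ => m tb.1.1 (l tb.1.1 • tb.2) tb.1.2)
  refine h3.congr ⟨univ, univ_mem, Eventually.of_forall fun tb X _ => ?_⟩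
  exact add_comm _ _

/-- The regularity at the points where the new variable vanishes. -/
theorem TameZ.att_zero {s : Set Θ} {Z Z' : Θ → Set ℂ} {F : Θ → E × ℂ → ℂ}
    (hF : TameZ s Z F) (hZ : ∀ t ∈ s, ∀ r : ℝ, 0 < r → ∀ y ∈ Z t, r • y ∈ Z t)
    {m : Θ → ℂ → ℂ → ℂ} (hm : Level s Z Z' m) {l : Θ → ℝ}
    (hl : ContinuousOn l s) (hl0 : ∀ t ∈ s, 0 < l t) {t₀ : Θ} (ht₀ : t₀ ∈ s) {X₀ : E × ℂ}
    (hX₀ : X₀ ≠ 0) (h0 : 0 ≤ (F t₀ X₀).re) :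
    RegAt (s ×ˢ (univ : Set ℂ)) (fun (q : Θ × ℂ) (X : E × ℂ) => att F m l q.1 (X, q.2))
      (t₀, 0) X₀ := by
  by_cases hy : X₀.2 ∈ Z t₀
  · exact (hF.zreg t₀ ht₀ X₀ hy hX₀ h0).att
  · obtain ⟨k, hk0, hk1, A, U, hU, hev⟩ := hF.fam.reg t₀ ht₀ X₀ hX₀ h0
    have hl1 : 0 < l t₀ := hl0 t₀ ht₀
    -- the Lipschitz constant of `X ↦ l t • X.2`, composed with `A`
    set C : ℝ := (l t₀ + 1) * (‖A‖ + 1) with hC
    have hC0 : 0 < C := by positivity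
    have hε : 0 < (1 - k) / (2 * C) := div_pos (by linarith) (by linarith)
    have hy' : l t₀ • X₀.2 ∉ Z t₀ := by
      intro h
      have := hZ t₀ ht₀ (l t₀)⁻¹ (inv_pos.mpr hl1) _ h
      rw [smul_smul, inv_mul_cancel₀ hl1.ne', one_smul] at this
      exact hy this
    obtain ⟨V, hV, hev'⟩ := hm.small t₀ ht₀ (l t₀ • X₀.2) hy' _ hε
    have hc : ContinuousWithinAt (fun q : Θ × (E × ℂ) => l q.1 • q.2.2)
        (s ×ˢ (univ : Set (E × ℂ))) (t₀, X₀) := by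
      have hc1 : ContinuousWithinAt (fun q : Θ × (E × ℂ) => l q.1) (s ×ˢ (univ : Set (E × ℂ)))
          (t₀, X₀) := (hl t₀ ht₀).comp continuousWithinAt_fst fun q hq => hq.1
      have hc2 : ContinuousWithinAt (fun q : Θ × (E × ℂ) => q.2.2) (s ×ˢ (univ : Set (E × ℂ)))
          (t₀, X₀) := continuousWithinAt_snd.snd
      exact hc1.smul hc2
    have h1 : ∀ᶠ q : Θ × (E × ℂ) in 𝓝[s] t₀ ×ˢ 𝓝 X₀, l q.1 • q.2.2 ∈ V := by
      have h2 := hc.eventually (show ∀ᶠ y in 𝓝 (l t₀ • X₀.2), y ∈ V from hV)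
      rw [nhdsWithin_prod_eq, nhdsWithin_univ] at h2
      exact h2
    rw [eventually_prod_iff] at h1
    obtain ⟨pa, ha, pb, hb, hab⟩ := h1
    refine ⟨k + (1 - k) / 2, by linarith, by linarith, A, U ∩ {X | pb X}, inter_mem hU hb, ?_⟩
    have h3 : Tendsto Prod.fst (𝓝[s ×ˢ (univ : Set ℂ)] (t₀, (0 : ℂ))) (𝓝[s] t₀) :=
      continuousWithinAt_fst.tendsto_nhdsWithin fun p hp => hp.1
    have h4 : ∀ᶠ t in 𝓝[s] t₀, l t < l t₀ + 1 ∧ 0 < l t :=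
      ((hl t₀ ht₀).eventually (Iio_mem_nhds (by linarith))).and
        ((hl t₀ ht₀).eventually (Ioi_mem_nhds hl1))
    filter_upwards [h3.eventually hev, h3.eventually ha, hev', h3.eventually h4]
      with q e1 e2 e3 e4
    have e5 := MRegOn.add_lip (e1.mono (inter_subset_left (s := U) (t := {X | pb X})))
      (G := fun X : E × ℂ => m q.1 (l q.1 • X.2) q.2) (l := (1 - k) / 2) fun X hX c hX' => ?_
    · exact e5
    have h5 := e3 _ (hab e2 hX'.2) _ (hab e2 hX.2)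
    refine h5.trans ?_
    have h6 : l q.1 • (X + A c).2 - l q.1 • X.2 = l q.1 • (A c).2 := by
      rw [← smul_sub]; simp
    rw [h6, norm_smul, Real.norm_eq_abs, abs_of_pos e4.2]
    have h7 : ‖(A c).2‖ ≤ (‖A‖ + 1) * ‖c‖ :=
      (norm_snd_le _).trans ((A.le_opNorm c).trans
        (mul_le_mul_of_nonneg_right (by linarith) (norm_nonneg _)))
    calc (1 - k) / (2 * C) * (l q.1 * ‖(A c).2‖)
        ≤ (1 - k) / (2 * C) * ((l t₀ + 1) * ((‖A‖ + 1) * ‖c‖)) := by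
          refine mul_le_mul_of_nonneg_left ?_ hε.le
          exact mul_le_mul e4.1.le h7 (norm_nonneg _) (by linarith)
      _ = (1 - k) / 2 * ‖c‖ := by
          rw [hC]
          have : 0 < ‖A‖ + 1 := by positivity
          field_simp

/-- **The gated level lemma.** -/
theorem TameZ.attach [FiniteDimensional ℝ E] {s : Set Θ} (hs : IsCompact s) {Z Z' : Θ → Set ℂ}
    (hZ0 : ∀ t ∈ s, (0 : ℂ) ∈ Z t) (hZ : ∀ t ∈ s, ∀ r : ℝ, 0 < r → ∀ y ∈ Z t, r • y ∈ Z t)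
    {F : Θ → E × ℂ → ℂ}
    (hF : TameZ s Z F) {m : Θ → ℂ → ℂ → ℂ} (hm : Level s Z Z' m) :
    ∃ l₀ : ℝ, 0 < l₀ ∧ ∀ l : Θ → ℝ, ContinuousOn l s → (∀ t ∈ s, l₀ ≤ l t) →
      TameZ s Z' (att F m l) := by
  obtain ⟨K, hK0, hK⟩ := hF.exists_const hs hZ0
  obtain ⟨R, hR0, hR⟩ := hm.far
  obtain ⟨δ₁, hδ₁0, hδ₁⟩ := hm.exists_delta hs R
  obtain ⟨δ₂, hδ₂0, hδ₂⟩ := hm.next
  obtain ⟨δ, hδ0, hδa, hδb⟩ : ∃ δ : ℝ, 0 < δ ∧ δ ≤ δ₁ ∧ δ ≤ δ₂ :=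
    ⟨min δ₁ δ₂, lt_min hδ₁0 hδ₂0, min_le_left _ _, min_le_right _ _⟩
  refine ⟨K * R / δ, by positivity, fun l hl hle => ?_⟩
  have hl0 : ∀ t ∈ s, 0 < l t := fun t ht => lt_of_lt_of_le (by positivity) (hle t ht)
  -- regularity in the directions of `X` at the points which are not regular along `z`
  have key : ∀ t₀ ∈ s, ∀ X₀ : E × ℂ, ∀ z₀ : ℂ, z₀ ≠ 0 → 0 ≤ (att F m l t₀ (X₀, z₀)).re →
      (¬ ZReg s m t₀ (l t₀ • X₀.2) z₀ ∨ z₀ ∈ Z' t₀) →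
      RegAt (s ×ˢ (univ : Set ℂ)) (fun (q : Θ × ℂ) (X : E × ℂ) => att F m l q.1 (X, q.2))
        (t₀, z₀) X₀ := by
    intro t₀ ht₀ X₀ z₀ hz₀ h0 hbad
    have hzn : 0 < ‖z₀‖ := norm_pos_iff.mpr hz₀
    have hm0 : (m t₀ (l t₀ • X₀.2) z₀).re < 0 := by
      rcases hbad with hbad | hbad
      · by_contra hcon
        exact hbad (hm.reg t₀ ht₀ _ _ hz₀ (not_lt.mp hcon))
      · have h1 := hδ₂ t₀ ht₀ (l t₀ • X₀.2) z₀ hbad
        have h2 : 0 < δ₂ * ‖z₀‖ := by positivity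
        linarith
    have h0' : 0 ≤ (F t₀ X₀).re + (m t₀ (l t₀ • X₀.2) z₀).re := by
      have := h0
      rwa [att, Complex.add_re] at this
    have hF0 : 0 < (F t₀ X₀).re := by linarith
    have hX₀ : X₀ ≠ 0 := by
      rintro rfl
      rw [Hom1.zero (hF.fam.hom t₀ ht₀)] at hF0
      simp at hF0
    have hlt := hl0 t₀ ht₀
    by_cases hfar : R * ‖z₀‖ ≤ ‖l t₀ • X₀.2‖
    · rcases hR t₀ ht₀ _ z₀ hz₀ hfar with h | h
      · have h1 : X₀.2 ∈ Z t₀ := by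
          have := hZ t₀ ht₀ (l t₀)⁻¹ (inv_pos.mpr hlt) _ h
          rwa [smul_smul, inv_mul_cancel₀ hlt.ne', one_smul] at this
        exact (hF.zreg t₀ ht₀ X₀ h1 hX₀ hF0.le).att
      · exact h.reg ht₀ hl (hF.fam.reg t₀ ht₀ X₀ hX₀ hF0.le)
    · push Not at hfar
      have h1 : (m t₀ (l t₀ • X₀.2) z₀).re ≤ -(δ * ‖z₀‖) := by
        rcases hbad with hbad | hbad
        · have h1 := hδ₁ t₀ ht₀ _ z₀ hz₀ hfar.le hbad
          have h2 : δ * ‖z₀‖ ≤ δ₁ * ‖z₀‖ := mul_le_mul_of_nonneg_right hδa hzn.le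
          linarith
        · have h1 := hδ₂ t₀ ht₀ (l t₀ • X₀.2) z₀ hbad
          have h2 : δ * ‖z₀‖ ≤ δ₂ * ‖z₀‖ := mul_le_mul_of_nonneg_right hδb hzn.le
          linarith
      refine (hK t₀ ht₀ X₀ hX₀ ?_).att
      rw [norm_smul, Real.norm_eq_abs, abs_of_pos hlt] at hfar
      have h2 : K * R / δ * ‖X₀.2‖ ≤ l t₀ * ‖X₀.2‖ :=
        mul_le_mul_of_nonneg_right (hle t₀ ht₀) (norm_nonneg _)
      have h3 : K * R / δ * ‖X₀.2‖ ≤ R * ‖z₀‖ := h2.trans hfar.le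
      have h4 : K * ‖X₀.2‖ ≤ δ * ‖z₀‖ := by
        rw [div_mul_eq_mul_div, div_le_iff₀ hδ0] at h3
        have h5 : R * (K * ‖X₀.2‖) ≤ R * (δ * ‖z₀‖) := by linarith
        exact le_of_mul_le_mul_left h5 hR0
      linarith
  refine ⟨⟨?_, ?_, ?_⟩, ?_⟩
  · -- continuity
    have h1 : ContinuousOn (fun p : Θ × ((E × ℂ) × ℂ) => (p.1, p.2.1)) (s ×ˢ univ) :=
      (continuous_fst.prodMk (continuous_fst.comp continuous_snd)).continuousOn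
    have h2 : ContinuousOn (fun p : Θ × ((E × ℂ) × ℂ) => (p.1, (l p.1 • p.2.1.2, p.2.2)))
        (s ×ˢ univ) := by
      refine continuousOn_fst.prodMk (ContinuousOn.prodMk ?_ continuousOn_snd.snd)
      have hc1 : ContinuousOn (fun p : Θ × ((E × ℂ) × ℂ) => l p.1) (s ×ˢ univ) :=
        hl.comp continuousOn_fst fun p hp => hp.1
      have hc2 : ContinuousOn (fun p : Θ × ((E × ℂ) × ℂ) => p.2.1.2) (s ×ˢ univ) :=
        continuousOn_snd.fst.snd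
      exact hc1.smul hc2
    exact (hF.fam.cont.comp h1 (fun p hp => ⟨hp.1, mem_univ _⟩)).add
      (hm.cont.comp h2 (fun p hp => ⟨hp.1, mem_univ _⟩))
  · intro t ht r hr p
    show F t (r • p.1) + m t (l t • (r • p.1.2)) (r • p.2) = r • (F t p.1 + m t (l t • p.1.2) p.2)
    rw [smul_add, hF.fam.hom t ht r hr, smul_comm (l t) r, hm.hom t ht r hr]
  · rintro t₀ ht₀ ⟨X₀, z₀⟩ hne h0
    by_cases hz : z₀ = 0
    · subst hz
      have hX : X₀ ≠ 0 := by rintro rfl; exact hne rfl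
      refine RegAt.fst (TameZ.att_zero hF hZ hm hl hl0 ht₀ hX ?_)
      have h1 := h0
      rw [att] at h1
      simpa [hm.zero t₀ ht₀] using h1
    · by_cases hreg : ZReg s m t₀ (l t₀ • X₀.2) z₀
      · refine RegAt.snd ?_
        have h2 : RegAt (s ×ˢ (univ : Set (E × ℂ)))
            (fun (tb : Θ × (E × ℂ)) z => m tb.1 (l tb.1 • tb.2.2) z) (t₀, X₀) z₀ := by
          refine RegAt.param (s := s ×ˢ (univ : Set ℂ))
            (φ := fun tb : Θ × (E × ℂ) => (tb.1, l tb.1 • tb.2.2))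
            (F := fun (p : Θ × ℂ) z => m p.1 p.2 z) ?_ (fun p hp => ⟨hp.1, mem_univ _⟩) hreg
          refine continuousWithinAt_fst.prodMk ?_
          have hc1 : ContinuousWithinAt (fun q : Θ × (E × ℂ) => l q.1)
              (s ×ˢ (univ : Set (E × ℂ))) (t₀, X₀) :=
            (hl t₀ ht₀).comp continuousWithinAt_fst fun q hq => hq.1
          have hc2 : ContinuousWithinAt (fun q : Θ × (E × ℂ) => q.2.2)
              (s ×ˢ (univ : Set (E × ℂ))) (t₀, X₀) := continuousWithinAt_snd.snd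
          exact hc1.smul hc2
        exact RegAt.add_const h2 (fun tb : Θ × (E × ℂ) => F tb.1 tb.2)
      · exact RegAt.fst (key t₀ ht₀ X₀ z₀ hz h0 (Or.inl hreg))
  · rintro t₀ ht₀ ⟨X₀, z₀⟩ hzZ hne h0
    show RegAt (s ×ˢ (univ : Set ℂ)) (fun (q : Θ × ℂ) (X : E × ℂ) => att F m l q.1 (X, q.2))
      (t₀, z₀) X₀
    by_cases hz : z₀ = 0
    · subst hz
      have hX : X₀ ≠ 0 := by rintro rfl; exact hne rfl
      refine TameZ.att_zero hF hZ hm hl hl0 ht₀ hX ?_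
      have h1 := h0
      rw [att] at h1
      simpa [hm.zero t₀ ht₀] using h1
    · exact key t₀ ht₀ X₀ z₀ hz h0 (Or.inr hzZ)

end Vale.Agent.P268.T.GL
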