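import Vale.Agent.P268.T.H897.Trans
import Vale.Agent.P268.T.G417.Pen

/-!
# P268, topological half, block B1: from the ray form to the ray function

`rayFS : RayFS`: the ray form on `Sp c` is `GR` in the coordinates `eSp c`, and `gate_hEqv`.
-/

set_option linter.unusedSectionVars false

namespace Vale.Agent.P268.T.RV

open Set Filter Topology Vale.Agent.P268.T.G417

/-- The gate functions of the ray form in coordinates. -/
noncomputable def bOf (χ : ℕ → List ℕ → ℂ → ℝ) (c : List ℕ) (j : Fin c.length) (y : ℂ) : ℝ :=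
  if (j : ℕ) + 1 < c.length then χ (c.get j) (c.drop (j + 1)) y else 0

theorem gateOK_bOf {d : ℝ} {χ : ℕ → List ℕ → ℂ → ℝ} (hχ : RayGateFun d χ) {c : List ℕ}
    (hc : c.IsChain (· < ·)) : GateOK c d (bOf χ c) := by
  have hlt : ∀ (j : Fin c.length) (h : (j : ℕ) + 1 < c.length), c.get j < c.get ⟨j + 1, h⟩ :=
    fun j h => List.isChain_iff_getElem.mp hc j h
  have hdrop : ∀ (j : Fin c.length) (h : (j : ℕ) + 1 < c.length),
      c.drop ((j : ℕ) + 1) = c.get ⟨j + 1, h⟩ :: c.drop ((j : ℕ) + 2) :=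
    fun j h => List.drop_eq_getElem_cons h
  refine ⟨fun j => ?_, fun j r hr z => ?_, fun j z => ?_, fun j z hz hz' => ?_,
    fun j k z hk hz hz' => ?_, fun j h k z hk hk' hz hz' => ?_⟩
  · unfold bOf
    by_cases h : (j : ℕ) + 1 < c.length
    · simp only [if_pos h, hdrop j h]
      exact hχ.cont _ _ _ (hlt j h)
    · simp only [if_neg h]
      exact continuous_const
  · unfold bOf
    by_cases h : (j : ℕ) + 1 < c.length
    · simp only [if_pos h, hdrop j h]
      exact hχ.hom _ _ _ (hlt j h) r hr z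
    · simp only [if_neg h, mul_zero]
  · unfold bOf
    by_cases h : (j : ℕ) + 1 < c.length
    · simp only [if_pos h, hdrop j h]
      exact hχ.nonneg _ _ _ (hlt j h) z
    · simp only [if_neg h, le_refl]
  · unfold bOf
    by_cases h : (j : ℕ) + 1 < c.length
    · simp only [if_pos h, hdrop j h]
      exact hχ.neg _ _ _ (hlt j h) z hz hz'
    · simp only [if_neg h]
  · unfold bOf
    by_cases h : (j : ℕ) + 1 < c.length
    · simp only [if_pos h, hdrop j h]
      exact hχ.small _ _ _ (hlt j h) k z hk hz hz'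
    · simp only [if_neg h]
  · unfold bOf
    simp only [if_pos h, hdrop j h]
    refine hχ.big _ _ _ (hlt j h) k z hk ?_ hz hz'
    rcases hk' with h' | ⟨h', h''⟩
    · exact Or.inl h'
    · refine Or.inr ⟨h', fun h0 => ?_⟩
      have := List.drop_eq_nil_iff.mp h0
      omega

/-- The ray form is the gated ray function in coordinates. -/
theorem rayForm_eq_GR (ε : ℝ) (χ : ℕ → List ℕ → ℂ → ℝ) (l : List ℝ) (c : List ℕ)
    [Nonempty (Vale.Agent.P268.Z.Stair c)] (hc0 : c ≠ []) (hc : ∀ x ∈ c, 2 ≤ x)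
    (hl : l.length + 1 = c.length) (q : Sp c) :
    rayForm ε χ l c q = GR ε c (fun j => l.getD j 1) (bOf χ c) (eSp c q) := by
  have hV : ∀ (p : Fin c.length → ℕ) (x : Fin c.length → ℂ), Vray ε χ l c p x =
      ∑ j, ray ε (p j) (x j) - ∑ j : Fin c.length,
        if h : (j : ℕ) + 1 < c.length ∧ p j + 1 = c.get j then
          l.getD j 1 * bOf χ c j (x ⟨j + 1, h.1⟩) else 0 := by
    intro p x
    unfold Vray bOf
    congr 1
    refine Finset.sum_congr rfl fun j _ => ?_
    by_cases h : (j : ℕ) + 1 < c.length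
    · by_cases h' : p j + 1 = c.get j
      · rw [dif_pos h, if_pos h', dif_pos ⟨h, h'⟩, if_pos h]
      · rw [dif_pos h, if_neg h', dif_neg fun h'' => h' h''.2]
    · rw [dif_neg h, dif_neg fun h'' => h h''.1]
  obtain ⟨h1, p, h2, h3⟩ := ray_max ε χ c l q hc0 hc hl
  refine Complex.ext ?_ ?_
  · show (rayForm ε χ l c q).re = Finset.univ.sup' Finset.univ_nonempty _
    refine le_antisymm ?_ (Finset.sup'_le _ _ fun p _ => ?_)
    · rw [← h3, hV]
      exact Finset.le_sup' (fun p : Box c => ∑ j, ray ε (p.1 j) (eSp c q j) -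
        ∑ j : Fin c.length, if h : (j : ℕ) + 1 < c.length ∧ p.1 j + 1 = c.get j then
          l.getD j 1 * bOf χ c j (eSp c q ⟨j + 1, h.1⟩) else 0)
        (Finset.mem_univ (⟨p, h2⟩ : Box c))
    · have := h1 p.1 p.2
      rw [hV] at this
      exact this
  · exact ray_im ε χ c l q hc0 hl

/-- **From the ray form to the ray function.** -/
theorem rayFS : RayFS := by
  intro a c hc hcc _ d hd
  obtain ⟨ε₁, e1, h⟩ := gate_hEqv (c := a :: c) hc hd
  refine ⟨ε₁, e1, fun χ hχ ε hε l hl hl1 => ?_⟩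
  have hG := h (bOf χ (a :: c)) (gateOK_bOf hχ hcc) ε hε (fun j => l.getD j 1) fun j => by
    show (1 : ℝ) ≤ l.getD j 1
    by_cases hj : (j : ℕ) < l.length
    · rw [List.getD_eq_getElem _ _ hj]
      exact hl1 _ (List.getElem_mem hj)
    · rw [List.getD_eq_default _ _ (not_lt.mp hj)]
  have e2 : rayForm ε χ l (a :: c) =
      GR ε (a :: c) (fun j => l.getD j 1) (bOf χ (a :: c)) ∘ eSp (a :: c) :=
    funext fun q => rayForm_eq_GR ε χ l (a :: c) (List.cons_ne_nil _ _) hc (by simp [hl]) q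
  rw [e2]
  exact (HEqv.of_linear (eSp (a :: c)) hG.left).trans hG

end Vale.Agent.P268.T.RV
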