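import Vale.Agent.P268.T.SkelChain

/-!
# P268, topological half: the ray form on `Fin c.length → ℂ`

`eSp c : Sp c ≃L[ℝ] (Fin c.length → ℂ)`; `ray_max`: the real part of the ray form is the maximum
over the box of `∑ ray - ∑ penalties`; `ray_im`: its imaginary part is `turnSum`.
-/

set_option linter.unusedSectionVars false

namespace Vale.Agent.P268.T.RV

open Set Filter Topology

/-! ### The coordinates of `Sp c` -/

/-- The coordinates. -/
def toF : ∀ c : List ℕ, Sp c → (Fin c.length → ℂ)
  | [] => fun _ i => i.elim0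
  | _ :: c => fun q => (Fin.cons q.2 (toF c q.1) : Fin (c.length + 1) → ℂ)

/-- The inverse of `toF`. -/
def ofF : ∀ c : List ℕ, (Fin c.length → ℂ) → Sp c
  | [] => fun _ => (0 : EuclideanSpace ℂ (Fin 0))
  | _ :: c => fun x => (ofF c (Fin.tail (n := c.length) (α := fun _ => ℂ) x), x (0 : Fin (c.length + 1)))

theorem ofF_toF : ∀ (c : List ℕ) (q : Sp c), ofF c (toF c q) = q
  | [], q => Subsingleton.elim (α := EuclideanSpace ℂ (Fin 0)) _ _
  | _ :: c, q => by
    show (ofF c (Fin.tail (n := c.length) (α := fun _ => ℂ)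
      (Fin.cons (n := c.length) (α := fun _ => ℂ) q.2 (toF c q.1))),
      (Fin.cons (n := c.length) (α := fun _ => ℂ) q.2 (toF c q.1) : Fin (c.length + 1) → ℂ) 0) = q
    rw [Fin.tail_cons, Fin.cons_zero, ofF_toF c q.1]
    rfl

theorem toF_ofF : ∀ (c : List ℕ) (x : Fin c.length → ℂ), toF c (ofF c x) = x
  | [], x => funext fun i => i.elim0
  | _ :: c, x => by
    show (Fin.cons (n := c.length) (α := fun _ => ℂ) (x (0 : Fin (c.length + 1)))
      (toF c (ofF c (Fin.tail (n := c.length) (α := fun _ => ℂ) x))) : Fin (c.length + 1) → ℂ) = x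
    rw [toF_ofF c]
    exact Fin.cons_self_tail (n := c.length) (α := fun _ => ℂ) x

theorem toF_add : ∀ (c : List ℕ) (q q' : Sp c), toF c (q + q') = toF c q + toF c q'
  | [], _, _ => funext fun i => i.elim0
  | _ :: c, q, q' => by
    funext i
    refine Fin.cases ?_ (fun i => ?_) (i : Fin (c.length + 1))
    · rfl
    · exact congrFun (toF_add c q.1 q'.1) i

theorem toF_smul : ∀ (c : List ℕ) (r : ℝ) (q : Sp c), toF c (r • q) = r • toF c q
  | [], _, _ => funext fun i => i.elim0
  | _ :: c, r, q => by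
    funext i
    refine Fin.cases ?_ (fun i => ?_) (i : Fin (c.length + 1))
    · rfl
    · exact congrFun (toF_smul c r q.1) i

/-- The space of the variables of a chain in coordinates. -/
noncomputable def eSp (c : List ℕ) : Sp c ≃L[ℝ] (Fin c.length → ℂ) :=
  LinearEquiv.toContinuousLinearEquiv
    { toFun := toF c
      invFun := ofF c
      left_inv := ofF_toF c
      right_inv := toF_ofF c
      map_add' := toF_add c
      map_smul' := toF_smul c }

theorem eSp_apply (c : List ℕ) (q : Sp c) : eSp c q = toF c q := rfl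

/-! ### The maximum over the box -/

/-- The box: all rays which are present if all gates are open. -/
def BoxC (c : List ℕ) (p : Fin c.length → ℕ) : Prop :=
  ∀ j : Fin c.length, p j + 1 < c.get j ∨ (p j + 1 = c.get j ∧ (j : ℕ) + 1 < c.length)

/-- The penalised height functions. -/
noncomputable def Vray (ε : ℝ) (χ : ℕ → List ℕ → ℂ → ℝ) (l : List ℝ) (c : List ℕ)
    (p : Fin c.length → ℕ) (x : Fin c.length → ℂ) : ℝ :=
  ∑ j, ray ε (p j) (x j) - ∑ j : Fin c.length, if h : (j : ℕ) + 1 < c.length then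
    (if p j + 1 = c.get j then l.getD j 1 * χ (c.get j) (c.drop (j + 1)) (x ⟨j + 1, h⟩) else 0)
    else 0

theorem Vray_single (ε : ℝ) (χ : ℕ → List ℕ → ℂ → ℝ) (l : List ℝ) (a : ℕ)
    (p : Fin [a].length → ℕ) (x : Fin [a].length → ℂ) :
    Vray ε χ l [a] p x = ray ε (p (0 : Fin 1)) (x (0 : Fin 1)) := by
  unfold Vray
  have h1 : (∑ j : Fin [a].length, if h : (j : ℕ) + 1 < [a].length then
      (if p j + 1 = [a].get j then l.getD j 1 * χ ([a].get j) ([a].drop (j + 1))
        (x ⟨j + 1, h⟩) else 0) else 0) = 0 := by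
    refine Finset.sum_eq_zero fun j _ => ?_
    rw [dif_neg]
    simp
  rw [h1, sub_zero]
  exact Fin.sum_univ_one (fun j : Fin 1 => ray ε (p j) (x j))

theorem Vray_cons (ε : ℝ) (χ : ℕ → List ℕ → ℂ → ℝ) (k : ℝ) (l : List ℝ) (a b : ℕ) (c : List ℕ)
    (p : Fin ((b :: c).length + 1) → ℕ) (x : Fin ((b :: c).length + 1) → ℂ) :
    Vray ε χ (k :: l) (a :: b :: c) p x =
      ray ε (p 0) (x 0) - (if p 0 + 1 = a then k * χ a (b :: c) (x 1) else 0) +
        Vray ε χ l (b :: c) (fun j => p (Fin.succ j)) (fun j => x (Fin.succ j)) := by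
  unfold Vray
  have h1 : (∑ j : Fin (a :: b :: c).length, ray ε (p j) (x j)) =
      ray ε (p 0) (x 0) + ∑ j : Fin (b :: c).length, ray ε (p (Fin.succ j)) (x (Fin.succ j)) :=
    Fin.sum_univ_succ (n := (b :: c).length) (fun j => ray ε (p j) (x j))
  have h2 := Fin.sum_univ_succ (n := (b :: c).length)
    (fun j : Fin ((b :: c).length + 1) => if h : (j : ℕ) + 1 < (a :: b :: c).length then
    (if p j + 1 = (a :: b :: c).get j then (k :: l).getD j 1 *
      χ ((a :: b :: c).get j) ((a :: b :: c).drop (j + 1)) (x ⟨j + 1, h⟩) else 0) else 0)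
  have h3 : (∑ j : Fin (a :: b :: c).length, if h : (j : ℕ) + 1 < (a :: b :: c).length then
    (if p j + 1 = (a :: b :: c).get j then (k :: l).getD j 1 *
      χ ((a :: b :: c).get j) ((a :: b :: c).drop (j + 1)) (x ⟨j + 1, h⟩) else 0) else 0) =
      (if p 0 + 1 = a then k * χ a (b :: c) (x 1) else 0) +
      ∑ j : Fin (b :: c).length, if h : (j : ℕ) + 1 < (b :: c).length then
        (if p (Fin.succ j) + 1 = (b :: c).get j then l.getD j 1 *
          χ ((b :: c).get j) ((b :: c).drop (j + 1)) (x (Fin.succ ⟨j + 1, h⟩)) else 0) else 0 := by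
    refine h2.trans ?_
    congr 1
    refine Finset.sum_congr rfl fun j _ => ?_
    by_cases h : (j : ℕ) + 1 < (b :: c).length
    · rw [dif_pos h, dif_pos (show ((Fin.succ j : Fin ((b :: c).length + 1)) : ℕ) + 1 <
        (a :: b :: c).length by simpa using h)]
      rfl
    · rw [dif_neg h, dif_neg (show ¬ ((Fin.succ j : Fin ((b :: c).length + 1)) : ℕ) + 1 <
        (a :: b :: c).length by simpa using h)]
  rw [h1, h3]
  ring

theorem r1_spec (ε : ℝ) {a : ℕ} (ha : 2 ≤ a) (z : ℂ) :
    (∀ k, k + 1 < a → ray ε k z ≤ r1 ε a z) ∧ ∃ k, k + 1 < a ∧ ray ε k z = r1 ε a z := by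
  have hne : (Finset.range (a - 1)).Nonempty := ⟨0, by simp; omega⟩
  unfold r1
  rw [dif_pos hne]
  refine ⟨fun k hk => ?_, ?_⟩
  · exact Finset.le_sup' (fun k => ray ε k z) (by simp; omega)
  · obtain ⟨k, hk, hk'⟩ := Finset.exists_mem_eq_sup' hne fun k => ray ε k z
    refine ⟨k, ?_, hk'.symm⟩
    have := Finset.mem_range.mp hk
    omega

theorem rayForm_single (ε : ℝ) (χ : ℕ → List ℕ → ℂ → ℝ) (l : List ℝ) (a : ℕ) (q : Sp [] × ℂ) :
    rayForm ε χ l [a] q = rayFirst ε a q.2 := rfl

theorem rayForm_cons (ε : ℝ) (χ : ℕ → List ℕ → ℂ → ℝ) (k : ℝ) (l : List ℝ) (a b : ℕ) (c : List ℕ)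
    (q : (Sp c × ℂ) × ℂ) : rayForm ε χ (k :: l) (a :: b :: c) q =
      rayForm ε χ l (b :: c) q.1 + rayGate ε a (k * χ a (b :: c) q.1.2) q.2 := rfl

/-- The real part of the ray form is a maximum over the box. -/
theorem ray_max (ε : ℝ) (χ : ℕ → List ℕ → ℂ → ℝ) : ∀ (c : List ℕ) (l : List ℝ) (q : Sp c),
    c ≠ [] → (∀ x ∈ c, 2 ≤ x) → l.length + 1 = c.length →
    (∀ p, BoxC c p → Vray ε χ l c p (toF c q) ≤ (rayForm ε χ l c q).re) ∧
      ∃ p, BoxC c p ∧ Vray ε χ l c p (toF c q) = (rayForm ε χ l c q).re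
  | [], _, _, h, _, _ => absurd rfl h
  | [a], l, q, _, h2, _ => by
    obtain ⟨e1, k, e2, e3⟩ := r1_spec ε (h2 a List.mem_cons_self) q.2
    have hre : (rayForm ε χ l [a] q).re = r1 ε a q.2 := rfl
    have hx : toF [a] q (0 : Fin 1) = q.2 := rfl
    refine ⟨fun p hp => ?_, fun _ => k, fun j => Or.inl ?_, ?_⟩
    · rw [Vray_single, hre, hx]
      refine e1 _ ?_
      rcases hp (0 : Fin 1) with h | ⟨_, h⟩
      · exact h
      · simp at h
    · have hj : j = (0 : Fin 1) := Subsingleton.elim (α := Fin 1) _ _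
      subst hj
      exact e2
    · rw [Vray_single, hre, hx, e3]
  | a :: b :: c, [], _, _, _, hl => by simp at hl
  | a :: b :: c, κ :: l, q, _, h2, hl => by
    obtain ⟨ih1, p', ih2, ih3⟩ := ray_max ε χ (b :: c) l q.1 (List.cons_ne_nil _ _)
      (fun x hx => h2 x (List.mem_cons_of_mem _ hx)) (by simpa using hl)
    have ha : 2 ≤ a := h2 a List.mem_cons_self
    obtain ⟨e1, k, e2, e3⟩ := r1_spec ε ha q.2
    have hre : (rayForm ε χ (κ :: l) (a :: b :: c) q).re = (rayForm ε χ l (b :: c) q.1).re +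
        max (r1 ε a q.2) (ray ε (a - 1 : ℕ) q.2 - κ * χ a (b :: c) q.1.2) := by
      have := congrArg Complex.re (rayForm_cons ε χ κ l a b c q)
      rw [Complex.add_re] at this
      exact this
    have hx : (fun j : Fin (b :: c).length => toF (a :: b :: c) q (Fin.succ j)) =
        toF (b :: c) q.1 := rfl
    constructor
    · intro p hp
      have hp' : BoxC (b :: c) (fun j => p (Fin.succ j)) := by
        intro j
        rcases hp (Fin.succ j) with h | ⟨h, h'⟩
        · exact Or.inl h
        · exact Or.inr ⟨h, by simpa using h'⟩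
      have s1 := ih1 _ hp'
      have s2 : ray ε (p (0 : Fin ((b :: c).length + 1))) q.2 -
          (if p (0 : Fin ((b :: c).length + 1)) + 1 = a then κ * χ a (b :: c) q.1.2 else 0) ≤
          max (r1 ε a q.2) (ray ε (a - 1 : ℕ) q.2 - κ * χ a (b :: c) q.1.2) := by
        rcases hp (0 : Fin ((b :: c).length + 1)) with h | ⟨h, _⟩
        · have h' : p (0 : Fin ((b :: c).length + 1)) + 1 < a := h
          rw [if_neg (by omega), sub_zero]
          exact (e1 _ h').trans (le_max_left _ _)
        · have h' : p (0 : Fin ((b :: c).length + 1)) + 1 = a := h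
          rw [if_pos h']
          have h'' : p (0 : Fin ((b :: c).length + 1)) = a - 1 := by omega
          rw [h'']
          exact le_max_right _ _
      have s3 := Vray_cons ε χ κ l a b c p (toF (a :: b :: c) q)
      have s4 : Vray ε χ (κ :: l) (a :: b :: c) p (toF (a :: b :: c) q) =
          ray ε (p (0 : Fin ((b :: c).length + 1))) q.2 -
          (if p (0 : Fin ((b :: c).length + 1)) + 1 = a then κ * χ a (b :: c) q.1.2 else 0) +
          Vray ε χ l (b :: c) (fun j => p (Fin.succ j)) (toF (b :: c) q.1) := s3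
      rw [s4, hre]
      linarith
    · -- the maximum is attained
      obtain ⟨k', hk', hk''⟩ : ∃ k' : ℕ, (k' + 1 < a ∨ k' + 1 = a) ∧
          ray ε k' q.2 - (if k' + 1 = a then κ * χ a (b :: c) q.1.2 else 0) =
          max (r1 ε a q.2) (ray ε (a - 1 : ℕ) q.2 - κ * χ a (b :: c) q.1.2) := by
        rcases le_total (ray ε (a - 1 : ℕ) q.2 - κ * χ a (b :: c) q.1.2) (r1 ε a q.2) with h | h
        · refine ⟨k, Or.inl e2, ?_⟩
          rw [if_neg (by omega), sub_zero, max_eq_left h, e3]
        · refine ⟨a - 1, Or.inr (by omega), ?_⟩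
          rw [if_pos (by omega), max_eq_right h]
      refine ⟨(Fin.cons (n := (b :: c).length) (α := fun _ => ℕ) k' p' :
        Fin ((b :: c).length + 1) → ℕ), ?_, ?_⟩
      · intro j
        refine Fin.cases ?_ (fun j => ?_) (j : Fin ((b :: c).length + 1))
        · rcases hk' with h | h
          · exact Or.inl h
          · exact Or.inr ⟨h, by simp⟩
        · rcases ih2 j with h | ⟨h, h'⟩
          · exact Or.inl h
          · exact Or.inr ⟨h, by simpa using h'⟩
      · have s3 := Vray_cons ε χ κ l a b c (Fin.cons (n := (b :: c).length) (α := fun _ => ℕ) k' p')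
          (toF (a :: b :: c) q)
        have s4 : Vray ε χ (κ :: l) (a :: b :: c)
            (Fin.cons (n := (b :: c).length) (α := fun _ => ℕ) k' p') (toF (a :: b :: c) q) =
            ray ε k' q.2 - (if k' + 1 = a then κ * χ a (b :: c) q.1.2 else 0) +
            Vray ε χ l (b :: c) p' (toF (b :: c) q.1) := s3
        rw [s4, hre, hk'', ih3]
        ring

/-- The imaginary part of the ray form. -/
theorem ray_im (ε : ℝ) (χ : ℕ → List ℕ → ℂ → ℝ) : ∀ (c : List ℕ) (l : List ℝ) (q : Sp c),
    c ≠ [] → l.length + 1 = c.length → (rayForm ε χ l c q).im = turnSum (toF c q)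
  | [], _, _, h, _ => absurd rfl h
  | [a], l, q, _, _ => by
    have h1 : turnSum (toF [a] q) = turn q.2 :=
      Fin.sum_univ_one (fun j : Fin 1 => turn (toF [a] q j))
    rw [h1]
    rfl
  | a :: b :: c, [], _, _, hl => by simp at hl
  | a :: b :: c, κ :: l, q, _, hl => by
    have ih := ray_im ε χ (b :: c) l q.1 (List.cons_ne_nil _ _) (by simpa using hl)
    have h1 : turnSum (toF (a :: b :: c) q) = turn q.2 + turnSum (toF (b :: c) q.1) :=
      Fin.sum_univ_succ (n := (b :: c).length)
        (fun j : Fin ((b :: c).length + 1) => turn (toF (a :: b :: c) q j))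
    have h2 : (rayForm ε χ (κ :: l) (a :: b :: c) q).im = (rayForm ε χ l (b :: c) q.1).im +
        turn q.2 := by
      have := congrArg Complex.im (rayForm_cons ε χ κ l a b c q)
      rw [Complex.add_im] at this
      exact this
    rw [h1, h2, ih]
    ring

end Vale.Agent.P268.T.RV
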